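import Mathlib

/-!
# P089: a model of the classifying space for proper actions, the cells
-/

set_option autoImplicit false
set_option linter.all false

open Set Metric Function Topology

noncomputable section

namespace Vale.Agent.P089GE

variable {G : Type} {n : ℕ}

/-- finitely supported functions with values in `[0,1]` and maximum `1` -/
structure E (G : Type) : Type where
  t : G → ℝ
  fin : (support t).Finite
  nn : ∀ g, 0 ≤ t g
  le : ∀ g, t g ≤ 1
  ex : ∃ g, t g = 1

theorem E.ext {p q : E G} (h : p.t = q.t) : p = q := by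
  cases p
  cases q
  cases h
  rfl

/-- a chain of `n + 1` nonempty finite sets, given by its level function -/
structure Cell (G : Type) (n : ℕ) : Type where
  r : G → Option (Fin (n + 1))
  fin : {g | r g ≠ none}.Finite
  sur : ∀ k, ∃ g, r g = some k

theorem Cell.ext {c d : Cell G n} (h : c.r = d.r) : c = d := by
  cases c
  cases d
  cases h
  rfl

/-- the clamped coordinate -/
def u (a : ℝ) : ℝ := max 0 (min 1 ((1 + a) / 2))

theorem u_nn (a : ℝ) : 0 ≤ u a := le_max_left _ _

theorem u_le (a : ℝ) : u a ≤ 1 := max_le zero_le_one (min_le_left _ _)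

theorem u_cont : Continuous u := by
  unfold u
  fun_prop

theorem u_eq {a : ℝ} (h1 : -1 ≤ a) (h2 : a ≤ 1) : u a = (1 + a) / 2 := by
  rw [u, min_eq_right (by linarith), max_eq_right (by linarith)]

/-- the values on the levels -/
def s (x : Fin n → ℝ) (k : Fin (n + 1)) : ℝ := ∏ i : Fin n, if i.val < k.val then u (x i) else 1

theorem s_zero (x : Fin n → ℝ) : s x 0 = 1 :=
  Finset.prod_eq_one fun i _ => if_neg (Nat.not_lt_zero _)

theorem s_succ (x : Fin n → ℝ) (i : Fin n) : s x i.succ = s x i.castSucc * u (x i) := by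
  have h : u (x i) = ∏ j : Fin n, if j = i then u (x j) else 1 := by simp
  rw [s, s, h, ← Finset.prod_mul_distrib]
  refine Finset.prod_congr rfl fun j _ => ?_
  rw [Fin.val_succ, Fin.val_castSucc]
  by_cases h1 : j = i
  · subst h1
    rw [if_pos (Nat.lt_succ_self _), if_neg (lt_irrefl _), if_pos rfl, one_mul]
  · have h2 : j.val ≠ i.val := fun e => h1 (Fin.ext e)
    rw [if_neg h1, mul_one]
    exact if_congr (by omega) rfl rfl

theorem s_nn (x : Fin n → ℝ) (k : Fin (n + 1)) : 0 ≤ s x k :=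
  Finset.prod_nonneg fun i _ => by
    split_ifs
    exacts [u_nn _, zero_le_one]

theorem s_le (x : Fin n → ℝ) (k : Fin (n + 1)) : s x k ≤ 1 :=
  Finset.prod_le_one (fun i _ => by
    split_ifs
    exacts [u_nn _, zero_le_one]) fun i _ => by
    split_ifs
    exacts [u_le _, le_rfl]

theorem s_cont (k : Fin (n + 1)) : Continuous fun x : Fin n → ℝ => s x k :=
  continuous_finset_prod _ fun i _ => by
    split_ifs
    exacts [u_cont.comp (continuous_apply i), continuous_const]

theorem ball_iff {x : Fin n → ℝ} : x ∈ ball (0 : Fin n → ℝ) 1 ↔ ∀ i, -1 < x i ∧ x i < 1 := by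
  rw [mem_ball_zero_iff, pi_norm_lt_iff one_pos]
  exact forall_congr' fun i => by rw [Real.norm_eq_abs, abs_lt]

theorem s_pos {x : Fin n → ℝ} (h : x ∈ ball (0 : Fin n → ℝ) 1) (k : Fin (n + 1)) : 0 < s x k :=
  Finset.prod_pos fun i _ => by
    have h1 := ball_iff.1 h i
    split_ifs
    · rw [u_eq h1.1.le h1.2.le]
      linarith
    · exact one_pos

theorem s_anti {x : Fin n → ℝ} (h : x ∈ ball (0 : Fin n → ℝ) 1) : StrictAnti (s x) := by
  refine Fin.strictAnti_iff_succ_lt.2 fun i => ?_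
  have h1 := ball_iff.1 h i
  rw [s_succ, u_eq h1.1.le h1.2.le]
  exact mul_lt_of_lt_one_right (s_pos h _) (by linarith)

/-- the characteristic map -/
def chi (c : Cell G n) (x : Fin n → ℝ) : E G where
  t g := (c.r g).elim 0 (s x)
  fin := c.fin.subset fun g hg h =>
    hg (congrArg (fun o : Option (Fin (n + 1)) => o.elim 0 (s x)) h)
  nn g := by
    cases c.r g
    exacts [le_rfl, s_nn _ _]
  le g := by
    cases c.r g
    exacts [zero_le_one, s_le _ _]
  ex := (c.sur 0).imp fun g hg => by rw [hg]; exact s_zero x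

theorem chi_t (c : Cell G n) (x : Fin n → ℝ) (g : G) : (chi c x).t g = (c.r g).elim 0 (s x) := rfl

theorem chi_supp {c : Cell G n} {x : Fin n → ℝ} {g : G} (h : (chi c x).t g ≠ 0) : c.r g ≠ none :=
  fun e => h (by rw [chi_t, e]; rfl)

theorem chi_cont (c : Cell G n) (g : G) : Continuous fun x => (chi c x).t g := by
  simp only [chi_t]
  cases c.r g
  exacts [continuous_const, s_cont _]

theorem chi_clamp (c : Cell G n) (x : Fin n → ℝ) :
    ∃ y ∈ closedBall (0 : Fin n → ℝ) 1, chi c y = chi c x := by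
  refine ⟨fun i => 2 * u (x i) - 1, ?_, E.ext (funext fun g => ?_)⟩
  · rw [mem_closedBall_zero_iff, pi_norm_le_iff_of_nonneg zero_le_one]
    intro i
    rw [Real.norm_eq_abs, abs_le]
    exact ⟨by linarith [u_nn (x i)], by linarith [u_le (x i)]⟩
  · have h : s (fun i => 2 * u (x i) - 1) = s x := funext fun k =>
      Finset.prod_congr rfl fun i _ => by
        rw [u_eq (by linarith [u_nn (x i)]) (by linarith [u_le (x i)])]
        exact if_congr Iff.rfl (by ring) rfl
    rw [chi_t, chi_t, h]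

/-- the nonzero values -/
def V (p : E G) : Set ℝ := p.t '' support p.t

theorem V_fin (p : E G) : (V p).Finite := p.fin.image _

theorem V_chi (c : Cell G n) (x : Fin n → ℝ) : V (chi c x) = range (s x) \ {0} := by
  ext v
  constructor
  · rintro ⟨g, hg, rfl⟩
    refine ⟨?_, hg⟩
    obtain ⟨k, hk⟩ := Option.ne_none_iff_exists'.1 (chi_supp hg)
    exact ⟨k, by rw [chi_t, hk]; rfl⟩
  · rintro ⟨⟨k, rfl⟩, h⟩
    obtain ⟨g, hg⟩ := c.sur k
    have h1 : (chi c x).t g = s x k := by rw [chi_t, hg]; rfl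
    exact ⟨g, fun e => h (h1.symm.trans e), h1⟩

theorem V_ball (c : Cell G n) {x : Fin n → ℝ} (h : x ∈ ball (0 : Fin n → ℝ) 1) :
    V (chi c x) = range (s x) := by
  rw [V_chi]
  exact diff_singleton_eq_self fun ⟨k, hk⟩ => (s_pos h k).ne' hk

theorem card_ball (c : Cell G n) {x : Fin n → ℝ} (h : x ∈ ball (0 : Fin n → ℝ) 1) :
    (V (chi c x)).ncard = n + 1 := by
  rw [V_ball c h, ← image_univ, ncard_image_of_injective _ (s_anti h).injective, ncard_univ,
    Nat.card_eq_fintype_card, Fintype.card_fin]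

theorem card_sphere (c : Cell G n) {x : Fin n → ℝ} (h : x ∈ sphere (0 : Fin n → ℝ) 1) :
    (V (chi c x)).ncard ≤ n := by
  have h1 : ∀ i, |x i| ≤ 1 := fun i =>
    (norm_le_pi_norm x i).trans (mem_sphere_zero_iff_norm.1 h).le
  obtain ⟨i, hi⟩ : ∃ i, ¬ (-1 < x i ∧ x i < 1) := not_forall.1 fun h2 =>
    (mem_ball_zero_iff.1 (ball_iff.2 h2)).ne (mem_sphere_zero_iff_norm.1 h)
  have h2 := abs_le.1 (h1 i)
  have h3 : V (chi c x) ⊆ s x '' {i.succ}ᶜ := by
    rw [V_chi]
    rintro _ ⟨⟨k, rfl⟩, hk⟩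
    by_cases e : k = i.succ
    · subst e
      refine ⟨i.castSucc, (Fin.castSucc_lt_succ (i := i)).ne, ?_⟩
      rw [s_succ, u_eq h2.1 h2.2] at hk ⊢
      by_cases h4 : x i = -1
      · exact absurd (by rw [h4]; simp) hk
      · have h5 : x i = 1 := by
          by_contra h5
          exact hi ⟨lt_of_le_of_ne h2.1 (Ne.symm h4), lt_of_le_of_ne h2.2 h5⟩
        rw [h5]
        ring
    · exact ⟨k, e, rfl⟩
  refine ((ncard_le_ncard h3 (toFinite _)).trans (ncard_image_le (toFinite _))).trans ?_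
  have h6 := ncard_add_ncard_compl ({i.succ} : Set (Fin (n + 1)))
  rw [ncard_singleton, Nat.card_eq_fintype_card, Fintype.card_fin] at h6
  omega

theorem chi_inj {m : ℕ} {c : Cell G n} {d : Cell G m} {x : Fin n → ℝ} {y : Fin m → ℝ}
    (hx : x ∈ ball (0 : Fin n → ℝ) 1) (hy : y ∈ ball (0 : Fin m → ℝ) 1) (h : chi c x = chi d y) :
    (⟨n, c⟩ : Σ n, Cell G n) = ⟨m, d⟩ := by
  obtain rfl : n = m := by
    have h1 := card_ball c hx
    rw [h, card_ball d hy] at h1
    omega
  have h2 : s x = s y := ((s_anti hx).range_inj (s_anti hy)).1 (by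
    rw [← V_ball c hx, ← V_ball d hy, h])
  refine congrArg _ (Cell.ext (funext fun g => ?_))
  have h3 : (c.r g).elim 0 (s x) = (d.r g).elim 0 (s x) := by
    rw [← chi_t, h, chi_t, h2]
  cases h4 : c.r g <;> cases h5 : d.r g <;> rw [h4, h5] at h3
  · exact absurd h3 (s_pos hx _).ne
  · exact absurd h3 (s_pos hx _).ne'
  · exact congrArg _ ((s_anti hx).injective h3)

theorem exists_cell (p : E G) : ∃ (n : ℕ) (c : Cell G n), ∃ x ∈ ball (0 : Fin n → ℝ) 1,
    chi c x = p := by
  classical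
  obtain ⟨g0, hg0⟩ := p.ex
  have h1 : (1 : ℝ) ∈ V p := ⟨g0, by rw [mem_support, hg0]; exact one_ne_zero, hg0⟩
  obtain ⟨n, hn⟩ : ∃ n, (V_fin p).toFinset.card = n + 1 :=
    Nat.exists_eq_succ_of_ne_zero (Finset.card_ne_zero.2 ⟨1, (V_fin p).mem_toFinset.2 h1⟩)
  set a : Fin (n + 1) → ℝ := fun k => (V_fin p).toFinset.orderEmbOfFin hn k.rev with ha
  have h2 : StrictAnti a := fun k l h =>
    ((V_fin p).toFinset.orderEmbOfFin hn).strictMono (Fin.rev_lt_rev.2 h)
  have h3 : range a = V p := by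
    rw [← (V_fin p).coe_toFinset, ← Finset.range_orderEmbOfFin _ hn]
    exact Fin.rev_surjective.range_comp _
  have h4 : ∀ k, ∃ g, p.t g ≠ 0 ∧ p.t g = a k := fun k => (h3.subset ⟨k, rfl⟩ :)
  have h5 : ∀ k, 0 < a k := fun k => by
    obtain ⟨g, e1, e2⟩ := h4 k
    exact e2 ▸ lt_of_le_of_ne (p.nn g) e1.symm
  have h6 : a 0 = 1 := by
    obtain ⟨k, hk⟩ := h3.symm.subset h1
    obtain ⟨g, -, e2⟩ := h4 0
    exact le_antisymm (e2 ▸ p.le g) (hk ▸ h2.antitone (Fin.zero_le k))
  have h7 : ∀ i : Fin n, -1 < 2 * (a i.succ / a i.castSucc) - 1 ∧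
      2 * (a i.succ / a i.castSucc) - 1 < 1 := fun i =>
    ⟨by linarith [div_pos (h5 i.succ) (h5 i.castSucc)],
      by linarith [(div_lt_one (h5 i.castSucc)).2 (h2 (Fin.castSucc_lt_succ (i := i)))]⟩
  have h8 : s (fun i => 2 * (a i.succ / a i.castSucc) - 1) = a := funext fun k => by
    induction k using Fin.induction with
    | zero => rw [s_zero, h6]
    | succ i ih =>
      rw [s_succ, ih, u_eq (h7 i).1.le (h7 i).2.le]
      have := (h5 i.castSucc).ne'
      field_simp
      ring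
  refine ⟨n, ⟨fun g => if h : ∃ k, a k = p.t g then some h.choose else none,
    p.fin.subset fun g hg e => hg (dif_neg fun ⟨k, hk⟩ => (h5 k).ne' (hk.trans e)), fun k => ?_⟩,
    _, ball_iff.2 h7, E.ext (funext fun g => ?_)⟩
  · obtain ⟨g, -, e⟩ := h4 k
    have h : ∃ k, a k = p.t g := ⟨k, e.symm⟩
    exact ⟨g, (dif_pos h).trans (congrArg _ (h2.injective (h.choose_spec.trans e)))⟩
  · rw [chi_t, h8]
    by_cases h : ∃ k, a k = p.t g
    · exact (congrArg (fun o : Option (Fin (n + 1)) => o.elim 0 a) (dif_pos h)).trans h.choose_spec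
    · refine (congrArg (fun o : Option (Fin (n + 1)) => o.elim 0 a) (dif_neg h)).trans ?_
      by_contra e
      exact h (h3.symm.subset ⟨g, fun e' => e e'.symm, rfl⟩)

theorem supp_ball {c : Cell G n} {x : Fin n → ℝ} (hx : x ∈ ball (0 : Fin n → ℝ) 1) {g : G}
    (h : c.r g ≠ none) : (chi c x).t g ≠ 0 := by
  obtain ⟨k, hk⟩ := Option.ne_none_iff_exists'.1 h
  rw [chi_t, hk]
  exact (s_pos hx k).ne'

theorem fin_cells {B : Set G} (hB : B.Finite) (n : ℕ) :
    {c : Cell G n | ∀ g, c.r g ≠ none → g ∈ B}.Finite := by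
  have := hB.to_subtype
  refine Finite.of_injOn (f := fun c (g : B) => c.r g) (t := univ) (mapsTo_univ _ _)
    (fun c hc d hd h => Cell.ext (funext fun g => ?_)) (toFinite _)
  by_cases hg : g ∈ B
  · exact congrFun h ⟨g, hg⟩
  · rw [not_not.1 fun e => hg (hc g e), not_not.1 fun e => hg (hd g e)]

end Vale.Agent.P089GE
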