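import Vale.Agent.P089GE.Top
import Vale.Agent.P089G.Defs

/-!
# P089: existence of a model of the classifying space for proper actions
-/

set_option autoImplicit false
set_option linter.all false

open Set Topology

namespace Vale.Agent.P089GE

theorem isEG (G : Type) [Group G] : P089G.IsEG G (E G) :=
  ⟨t2E, open_smul, fun g n i h x hx => fix_of g n i hx (h.subset ⟨x, hx, rfl⟩)
    (RelCWComplex.openCell_subset_closedCell n i hx), fin_stab, fixed_contr, fixed_empty⟩

theorem exists_EG (G : Type) [Group G] : ∃ (X : Type) (_ : TopologicalSpace X) (_ : MulAction G X)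
    (_ : ContinuousConstSMul G X) (_ : CWComplex (univ : Set X)), P089G.IsEG G X :=
  ⟨E G, topE, actE, contE, cwE, isEG G⟩

end Vale.Agent.P089GE
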