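import Vale.Agent.P089GE.Cell

/-!
# P089: a model of the classifying space for proper actions
-/

set_option autoImplicit false
set_option linter.all false

open Set Metric Function Topology

noncomputable section

namespace Vale.Agent.P089GE

variable {G : Type} {n : ℕ}

/-- the weak topology -/
instance topE : TopologicalSpace (E G) :=
  ⨆ p : Σ n, Cell G n, TopologicalSpace.coinduced (chi p.2) inferInstance

theorem cont_chi (c : Cell G n) : Continuous (chi c) :=
  continuous_iSup_rng (i := (⟨n, c⟩ : Σ n, Cell G n)) continuous_coinduced_rng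

theorem cont_of {Z : Type} [TopologicalSpace Z] {f : E G → Z}
    (h : ∀ (n : ℕ) (c : Cell G n), Continuous fun x => f (chi c x)) : Continuous f :=
  continuous_iSup_dom.2 fun p => continuous_coinduced_dom.2 (h p.1 p.2)

theorem cont_t : Continuous (E.t : E G → G → ℝ) :=
  cont_of fun _ c => continuous_pi fun g => chi_cont c g

instance t2E : T2Space (E G) := T2Space.of_injective_continuous (fun _ _ => E.ext) cont_t

theorem closed_of {A : Set (E G)} (h : ∀ (n : ℕ) (c : Cell G n), IsClosed (chi c ⁻¹' A)) :
    IsClosed A := isClosed_iSup_iff.2 fun p => isClosed_coinduced.2 (h p.1 p.2)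

theorem cell_supp {B : Set G} {p : E G} (h : ∀ g, p.t g ≠ 0 → g ∈ B) :
    ∃ (n : ℕ) (c : Cell G n), (V p).ncard = n + 1 ∧ (∀ g, c.r g ≠ none → g ∈ B) ∧
      p ∈ chi c '' closedBall 0 1 := by
  obtain ⟨n, c, x, hx, rfl⟩ := exists_cell p
  exact ⟨n, c, card_ball c hx, fun g hg => h g (supp_ball hx hg), x, ball_subset_closedBall hx, rfl⟩

theorem cont_to {Z : Type} [TopologicalSpace Z] {B : Set G} (hB : B.Finite) {f : Z → E G}
    (hs : ∀ z g, (f z).t g ≠ 0 → g ∈ B) (hc : ∀ g, Continuous fun z => (f z).t g) :
    Continuous f := by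
  set K : Set (E G) := ⋃ n ∈ Iic B.ncard, ⋃ c ∈ {c : Cell G n | ∀ g, c.r g ≠ none → g ∈ B},
    chi c '' closedBall 0 1 with hK
  have h1 : IsCompact K := (finite_Iic _).isCompact_biUnion fun n _ =>
    (fin_cells hB n).isCompact_biUnion fun c _ => (isCompact_closedBall _ _).image (cont_chi c)
  have h2 : ∀ z, f z ∈ K := fun z => by
    obtain ⟨n, c, e1, e2, e3⟩ := cell_supp (hs z)
    have h3 : (V (f z)).ncard ≤ B.ncard :=
      (ncard_image_le (f z).fin).trans (ncard_le_ncard (hs z) hB)
    exact mem_biUnion (show n ∈ Iic B.ncard from mem_Iic.2 (by omega)) (mem_biUnion e2 e3)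
  have := isCompact_iff_compactSpace.1 h1
  have h4 : IsClosedEmbedding fun p : K => p.1.t :=
    (cont_t.comp continuous_subtype_val).isClosedEmbedding fun _ _ e => Subtype.ext (E.ext e)
  have h5 : Continuous fun z => (⟨f z, h2 z⟩ : K) :=
    h4.isEmbedding.continuous_iff.2 (continuous_pi hc)
  exact continuous_subtype_val.comp h5

/-- a point on the level `k` -/
def gg (c : Cell G n) (k : Fin (n + 1)) : G := (c.sur k).choose

theorem chi_gg (c : Cell G n) (x : Fin n → ℝ) (k : Fin (n + 1)) : (chi c x).t (gg c k) = s x k := by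
  rw [chi_t, gg, (c.sur k).choose_spec]
  rfl

/-- the inverse of the characteristic map -/
def inv (c : Cell G n) (p : E G) (i : Fin n) : ℝ :=
  2 * (p.t (gg c i.succ) / p.t (gg c i.castSucc)) - 1

theorem inv_chi (c : Cell G n) {x : Fin n → ℝ} (hx : x ∈ ball (0 : Fin n → ℝ) 1) :
    inv c (chi c x) = x := funext fun i => by
  have h1 := ball_iff.1 hx i
  rw [inv, chi_gg, chi_gg, s_succ, mul_div_cancel_left₀ _ (s_pos hx _).ne', u_eq h1.1.le h1.2.le]
  ring

/-- the characteristic map and its inverse on the open cell -/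
def pe (c : Cell G n) : PartialEquiv (Fin n → ℝ) (E G) where
  toFun := chi c
  invFun := inv c
  source := ball 0 1
  target := chi c '' ball 0 1
  map_source' x hx := ⟨x, hx, rfl⟩
  map_target' := by
    rintro _ ⟨x, hx, rfl⟩
    rwa [inv_chi c hx]
  left_inv' x hx := inv_chi c hx
  right_inv' := by
    rintro _ ⟨x, hx, rfl⟩
    rw [inv_chi c hx]

/-- the structure of a CW complex -/
instance cwE : CWComplex (univ : Set (E G)) where
  cell n := Cell G n
  map _ c := pe c
  source_eq _ _ := rfl
  continuousOn _ c := (cont_chi c).continuousOn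
  continuousOn_symm _ c := continuousOn_pi.2 fun i => by
    refine ((continuousOn_const.mul (ContinuousOn.div ?_ ?_ ?_)).sub continuousOn_const :
      ContinuousOn (fun p : E G => 2 * (p.t (gg c i.succ) / p.t (gg c i.castSucc)) - 1) _)
    · exact ((continuous_apply _).comp cont_t).continuousOn
    · exact ((continuous_apply _).comp cont_t).continuousOn
    · rintro _ ⟨x, hx, rfl⟩
      rw [chi_gg]
      exact (s_pos hx _).ne'
  pairwiseDisjoint' := fun p _ q _ h => disjoint_left.2 (by
    rintro _ ⟨x, hx, rfl⟩ ⟨y, hy, e⟩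
    exact h (chi_inj hx hy e.symm))
  mapsTo' n c := ⟨fun m => (fin_cells c.fin m).toFinset, fun x hx => by
    obtain ⟨m, d, e1, e2, e3⟩ := cell_supp (B := {g | c.r g ≠ none}) (p := chi c x)
      fun g hg => chi_supp hg
    have h1 := card_sphere c hx
    exact mem_iUnion₂.2 ⟨m, by omega, mem_iUnion₂.2 ⟨d, (Finite.mem_toFinset _).2 e2, e3⟩⟩⟩
  closed' A _ h := closed_of fun n c => by
    have h1 : chi c ⁻¹' A = chi c ⁻¹' (A ∩ chi c '' closedBall 0 1) :=
      Set.ext fun x => ⟨fun hx => ⟨hx, chi_clamp c x⟩, fun hx => hx.1⟩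
    rw [h1]
    exact (h n c).preimage (cont_chi c)
  union' := eq_univ_of_forall fun p => by
    obtain ⟨n, c, x, hx, e⟩ := exists_cell p
    exact mem_iUnion₂.2 ⟨n, c, x, ball_subset_closedBall hx, e⟩

/-! ### The contraction -/

open Classical in
/-- the indicator function of a finite nonempty set -/
def ind {B : Set G} (hB : B.Finite) (hne : B.Nonempty) : E G where
  t g := if g ∈ B then 1 else 0
  fin := hB.subset fun g hg => by
    by_contra h
    exact hg (if_neg h)
  nn g := by
    split_ifs
    exacts [zero_le_one, le_rfl]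
  le g := by
    split_ifs
    exacts [le_rfl, zero_le_one]
  ex := hne.imp fun g hg => if_pos hg

/-- the path from `p` to `q` -/
def hom (q : E G) (a : unitInterval) (p : E G) : E G where
  t g := max (min 1 (2 - 2 * a.1) * p.t g) (min 1 (2 * a.1) * q.t g)
  fin := (p.fin.union q.fin).subset fun g hg => by
    by_contra h
    rw [mem_union, not_or, notMem_support, notMem_support] at h
    exact hg (by simp only [h.1, h.2, mul_zero, max_self])
  nn g := le_max_of_le_right (mul_nonneg (le_min zero_le_one (by linarith [a.2.1])) (q.nn g))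
  le g := max_le (mul_le_one₀ (min_le_left _ _) (p.nn g) (p.le g))
    (mul_le_one₀ (min_le_left _ _) (q.nn g) (q.le g))
  ex := by
    by_cases h : a.1 ≤ 1 / 2
    · refine p.ex.imp fun g hg => ?_
      rw [hg, min_eq_left (by linarith), mul_one]
      exact max_eq_left (mul_le_one₀ (min_le_left _ _) (q.nn g) (q.le g))
    · refine q.ex.imp fun g hg => ?_
      rw [hg, min_eq_left (b := 2 * a.1) (by linarith), mul_one]
      exact max_eq_right (mul_le_one₀ (min_le_left _ _) (p.nn g) (p.le g))

theorem hom_t (q : E G) (a : unitInterval) (p : E G) (g : G) :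
    (hom q a p).t g = max (min 1 (2 - 2 * a.1) * p.t g) (min 1 (2 * a.1) * q.t g) := rfl

theorem hom_zero (q p : E G) : hom q 0 p = p := E.ext (funext fun g => by
  rw [hom_t]
  simp [p.nn g])

theorem hom_one (q p : E G) : hom q 1 p = q := E.ext (funext fun g => by
  rw [hom_t]
  simp [q.nn g])

theorem hom_cont' {Z : Type} [TopologicalSpace Z] (q : E G) {B : Set G} (hB : B.Finite)
    {f : Z → E G} {a : Z → unitInterval} (ha : Continuous a) (hs : ∀ z g, (f z).t g ≠ 0 → g ∈ B)
    (hc : ∀ g, Continuous fun z => (f z).t g) : Continuous fun z => hom q (a z) (f z) := by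
  refine cont_to (hB.union q.fin) (fun z g hg => ?_) fun g => ?_
  · by_contra h
    rw [mem_union, not_or, notMem_support] at h
    exact hg (by rw [hom_t, not_not.1 fun e => h.1 (hs z g e), h.2, mul_zero, mul_zero, max_self])
  · have := hc g
    simp only [hom_t]
    fun_prop

theorem hom_cont (q : E G) : Continuous fun z : unitInterval × E G => hom q z.1 z.2 := by
  let F : E G → C(unitInterval, E G) := fun p => ⟨fun a => hom q a p,
    hom_cont' q p.fin continuous_id (fun _ _ h => h) fun _ => continuous_const⟩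
  have h1 : Continuous F := cont_of fun n c =>
    ContinuousMap.continuous_of_continuous_uncurry _ (hom_cont' q c.fin
      (f := fun z : (Fin n → ℝ) × unitInterval => chi c z.1) continuous_snd
      (fun _ _ h => chi_supp h) fun g => (chi_cont c g).comp continuous_fst)
  exact (ContinuousMap.continuous_uncurry_of_continuous ⟨F, h1⟩).comp continuous_swap

theorem contractible {S : Set (E G)} {q : E G} (hq : q ∈ S) (h : ∀ a, ∀ p ∈ S, hom q a p ∈ S) :
    ContractibleSpace S :=
  (contractible_iff_id_nullhomotopic _).2 ⟨⟨q, hq⟩, ⟨⟨⟨fun z => ⟨hom q z.1 z.2.1, h _ _ z.2.2⟩,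
    ((hom_cont q).comp (continuous_fst.prodMk (continuous_subtype_val.comp continuous_snd))).subtype_mk
      _⟩, fun p => Subtype.ext (hom_zero q p.1), fun p => Subtype.ext (hom_one q p.1)⟩⟩⟩

/-! ### The action -/

variable [Group G]

theorem fin_shift (h : G) {B : Set G} (hB : B.Finite) : {g | h⁻¹ * g ∈ B}.Finite :=
  hB.preimage (mul_right_injective h⁻¹).injOn

instance actE : MulAction G (E G) where
  smul h p := ⟨fun g => p.t (h⁻¹ * g), fin_shift h p.fin, fun _ => p.nn _, fun _ => p.le _,
    p.ex.elim fun g hg => ⟨h * g, by rw [inv_mul_cancel_left, hg]⟩⟩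
  one_smul p := E.ext (funext fun g => congrArg p.t (by rw [inv_one, one_mul]))
  mul_smul h k p := E.ext (funext fun g => congrArg p.t (by rw [mul_inv_rev, mul_assoc]))

theorem smul_t (h : G) (p : E G) (g : G) : (h • p).t g = p.t (h⁻¹ * g) := rfl

instance actCell : MulAction G (Cell G n) where
  smul h c := ⟨fun g => c.r (h⁻¹ * g), fin_shift h c.fin,
    fun k => (c.sur k).elim fun g hg => ⟨h * g, by rw [inv_mul_cancel_left, hg]⟩⟩
  one_smul c := Cell.ext (funext fun g => congrArg c.r (by rw [inv_one, one_mul]))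
  mul_smul h k c := Cell.ext (funext fun g => congrArg c.r (by rw [mul_inv_rev, mul_assoc]))

theorem chi_smul (h : G) (c : Cell G n) (x : Fin n → ℝ) : chi (h • c) x = h • chi c x := rfl

instance contE : ContinuousConstSMul G (E G) :=
  ⟨fun h => cont_of fun _ c => cont_chi (h • c)⟩

/-- the action is compatible with the characteristic maps -/
theorem strict (h : G) (n : ℕ) (i : RelCWComplex.cell (univ : Set (E G)) n) :
    ∃ j : RelCWComplex.cell (univ : Set (E G)) n,
      ∀ x, RelCWComplex.map n j x = h • RelCWComplex.map n i x :=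
  ⟨(actCell (n := n)).smul h i, fun _ => rfl⟩

theorem fin_fix (p : E G) : {h : G | h • p = p}.Finite := by
  obtain ⟨g, hg⟩ := p.ex
  refine Finite.of_injOn (f := fun h => h⁻¹ * g) (fun h hh => ?_)
    (fun _ _ _ _ e => inv_injective (mul_right_cancel e)) p.fin
  rw [mem_support, ← smul_t, show h • p = p from hh, hg]
  exact one_ne_zero

theorem fin_stab (p : E G) : _root_.Finite (MulAction.stabilizer G p) := (fin_fix p).to_subtype

theorem fixed_empty (H : Subgroup G) (hH : Infinite H) : MulAction.fixedPoints H (E G) = ∅ :=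
  eq_empty_of_forall_notMem fun p hp => (infinite_coe_iff.1 hH : (H : Set G).Infinite)
    ((fin_fix p).subset fun h hh => hp ⟨h, hh⟩)

theorem fixed_contr (H : Subgroup G) (hH : _root_.Finite H) :
    ContractibleSpace (MulAction.fixedPoints H (E G)) := by
  classical
  have hq : ind (toFinite (H : Set G)) ⟨1, H.one_mem⟩ ∈ MulAction.fixedPoints H (E G) := fun h =>
    E.ext (funext fun g => congrArg (fun P : Prop => @ite ℝ P (Classical.propDecidable P) 1 0)
      (propext (H.mul_mem_cancel_left (H.inv_mem h.2))))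
  refine contractible hq fun a p hp h => E.ext (funext fun g => ?_)
  have h1 := congrArg (fun z : E G => z.t g) (hp h)
  have h2 := congrArg (fun z : E G => z.t g) (hq h)
  exact congrArg₂ max (congrArg _ h1) (congrArg _ h2)

theorem open_smul (h : G) (n : ℕ) (i : RelCWComplex.cell (univ : Set (E G)) n) :
    ∃ j : RelCWComplex.cell (univ : Set (E G)) n,
      (fun p => h • p) '' RelCWComplex.openCell n i = RelCWComplex.openCell n j :=
  ⟨(actCell (n := n)).smul h i, image_image _ _ _⟩

theorem fix_of (h : G) (n : ℕ) (i : RelCWComplex.cell (univ : Set (E G)) n) {x y : E G}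
    (hx : x ∈ RelCWComplex.openCell n i) (hx' : h • x ∈ RelCWComplex.openCell n i)
    (hy : y ∈ RelCWComplex.closedCell n i) : h • y = y := by
  obtain ⟨a, ha, rfl⟩ := hx
  obtain ⟨b, hb, e⟩ := hx'
  obtain ⟨z, -, rfl⟩ := hy
  have h1 : (actCell (n := n)).smul h i = i :=
    eq_of_heq (Sigma.mk.inj (chi_inj (c := (actCell (n := n)).smul h i) (d := i) ha hb e.symm)).2
  exact congrArg (fun c : Cell G n => chi c z) h1

end Vale.Agent.P089GE
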